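import Vale.Agent.P251EJ39.Fin
import Vale.Agent.P251EJ80.TD
import Vale.Agent.P251EJ81.Free

/-!
# P251EJ, block HS: linear and bilinear maps out of the telescope, the map `θ`
-/

open CategoryTheory MonoidalCategory MonObj Limits Pretriangulated

set_option linter.unusedSectionVars false

universe u

noncomputable section

namespace Vale.Agent.P251EJ39

open Vale.Agent.P251 Vale.Agent.P251.S Vale.Agent.P251.T Vale.Agent.P251.M EvenSpheres
  Vale.Agent.P093.Nak Vale.Agent.P257.H80 Vale.Agent.P251EJ80 Vale.Agent.P251EJ81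

variable {𝒯 : Type u} [Category.{0} 𝒯] [Preadditive 𝒯] [HasZeroObject 𝒯]
    [HasShift 𝒯 ℤ] [∀ n : ℤ, (shiftFunctor 𝒯 n).Additive] [Pretriangulated 𝒯] [IsTriangulated 𝒯]
    [MonoidalCategory 𝒯] [SymmetricCategory 𝒯] [TensorTriangulated 𝒯] [MonoidalClosed 𝒯]
    [HasCoproducts.{0} 𝒯] [HasProducts.{0} 𝒯] [StableCat 𝒯]

theorem lin_rho_hom {B N : 𝒯} [MonObj B] (m : ModStr B N) :
    (m.tensorRight (𝟙_ 𝒯)).IsLinear m (ρ_ N).hom := by
  change ((α_ B N (𝟙_ 𝒯)).inv ≫ m.act ▷ 𝟙_ 𝒯) ≫ (ρ_ N).hom = B ◁ (ρ_ N).hom ≫ m.act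
  simp

theorem lin_rho_inv {B N : 𝒯} [MonObj B] (m : ModStr B N) :
    m.IsLinear (m.tensorRight (𝟙_ 𝒯)) (ρ_ N).inv := by
  change m.act ≫ (ρ_ N).inv = B ◁ (ρ_ N).inv ≫ (α_ B N (𝟙_ 𝒯)).inv ≫ m.act ▷ 𝟙_ 𝒯
  simp

variable {B : 𝒯} [MonObj B] [IsCommMonObj B] {A : Type} [CommRing A]
  {H : ℤ → AddSubgroup A} [GradedRing H] {lam : HRing (stdEven 𝒯) B →+* A} (X : TD B H lam)

theorem td_ex1 (hB : Fre B B) : Ex1 X.mG := fun N m hN φ hφ => by
  obtain ⟨f, hf, hx⟩ := lift1Z hB X.free X.tel X.lin_io X.lin_t (TF.of_fre Fre.unit) m hN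
    (fun k => (Preadditive.leftComp N (ρ_ ((stdEven 𝒯).S k)).hom).comp (φ k))
    fun l k n h c x => by
      change (ρ_ _).hom ≫ φ n _ = zsm m h c ((ρ_ _).hom ≫ φ k x)
      rw [hφ]
      unfold gsmul zsm EvenSpheres.ext
      simp only [MonoidalCategory.tensorHom_def, MonoidalCategory.whiskerLeft_comp, Category.assoc]
      monoidal
  refine ⟨(ρ_ X.G).inv ≫ f, isLinear_comp _ _ (lin_rho_inv X.mG) hf, fun d x => ?_⟩
  rw [rightUnitor_inv_naturality_assoc, hx]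
  exact Iso.inv_hom_id_assoc _ _

theorem td_ext1 (hB : Fre B B) : Ext1 X.mG := fun N m hN e e' he he' h => by
  rw [← cancel_epi (ρ_ X.G).hom]
  refine ext1Z hB X.free X.tel X.lin_io (TF.of_fre Fre.unit) m hN
    (isLinear_comp _ _ (lin_rho_hom X.mG) he) (isLinear_comp _ _ (lin_rho_hom X.mG) he')
    fun k x => ?_
  rw [rightUnitor_naturality_assoc, rightUnitor_naturality_assoc, h]

theorem td_ext2 (hB : Fre B B) : Ext2 X.mG := fun N m hN e e' h1 h2 h1' h2' h => by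
  refine ext1Z hB X.free X.tel X.lin_io (tf_tel hB X.free X.tel) m hN h1 h1' fun i x => ?_
  rw [← cancel_epi (β_ X.G ((stdEven 𝒯).S i)).hom,
    ← BraidedCategory.braiding_naturality_right_assoc,
    ← BraidedCategory.braiding_naturality_right_assoc]
  refine ext1Z hB X.free X.tel X.lin_io (TF.of_fre (Fre.sph i)) m hN
    (isLinear_comp _ _ (lin_whiskerLeft X.mG x) h2)
    (isLinear_comp _ _ (lin_whiskerLeft X.mG x) h2') fun k y => ?_
  have h3 := h i k x y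
  unfold EvenSpheres.ext at h3
  rw [Category.assoc, Category.assoc, cancel_epi] at h3
  rw [← MonoidalCategory.tensorHom_def_assoc, ← MonoidalCategory.tensorHom_def_assoc,
    BraidedCategory.braiding_naturality_assoc, BraidedCategory.braiding_naturality_assoc, h3]

/-- the inverse of `ψ` in degree `d` -/
def θ (d : ℤ) : ((stdEven 𝒯).S d ⟶ X.G) →+ A :=
  (AddEquiv.ofBijective X.ψ X.bij).symm.toAddMonoidHom.comp
    (DirectSum.of ((stdEven 𝒯).Gr X.G) d)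

theorem ψ_θ (d : ℤ) (x : (stdEven 𝒯).S d ⟶ X.G) :
    X.ψ (θ X d x) = HRing.of (stdEven 𝒯) X.G d x :=
  (AddEquiv.ofBijective X.ψ X.bij).apply_symm_apply _

theorem θ_eq {d : ℤ} {x : (stdEven 𝒯).S d ⟶ X.G} {a : A}
    (h : X.ψ a = HRing.of (stdEven 𝒯) X.G d x) : θ X d x = a :=
  X.bij.1 ((ψ_θ X d x).trans h.symm)

theorem ψ_proj (a : A) (d : ℤ) :
    X.ψ (GradedRing.proj H d a) = HRing.of (stdEven 𝒯) X.G d (X.ψ a d) := by
  induction a using DirectSum.Decomposition.inductionOn H with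
  | zero =>
    rw [map_zero, map_zero, DirectSum.zero_apply]
    exact (map_zero (DirectSum.of ((stdEven 𝒯).Gr X.G) d)).symm
  | @homogeneous k a =>
    obtain ⟨x, hx⟩ := X.ψ_mem k a a.2
    rw [GradedRing.proj_apply, hx]
    by_cases h : k = d
    · subst h
      rw [DirectSum.decompose_of_mem_same H a.2, hx, DirectSum.of_eq_same]
    · rw [DirectSum.decompose_of_mem_ne H a.2 h, map_zero,
        DirectSum.of_eq_of_ne _ _ _ (Ne.symm h)]
      exact (map_zero (DirectSum.of ((stdEven 𝒯).Gr X.G) d)).symm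
  | add a b ha hb =>
    rw [map_add, map_add, ha, hb, map_add, DirectSum.add_apply]
    exact (map_add (DirectSum.of ((stdEven 𝒯).Gr X.G) d) _ _).symm

theorem θ_mem (d : ℤ) (x : (stdEven 𝒯).S d ⟶ X.G) : θ X d x ∈ H d := by
  have h := ψ_proj X (θ X d x) d
  rw [ψ_θ, DirectSum.of_eq_same] at h
  rw [θ_eq X h, GradedRing.proj_apply]
  exact SetLike.coe_mem _

theorem θ_inj (d : ℤ) : Function.Injective (θ X d) := fun x y h =>
  of_inj d (by rw [← ψ_θ, h, ψ_θ])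

theorem θ_surj (d : ℤ) (a : A) (ha : a ∈ H d) : ∃ x, θ X d x = a := by
  obtain ⟨x, hx⟩ := X.ψ_mem d a ha
  exact ⟨x, θ_eq X hx⟩

theorem θ_smul (i k n : ℤ) (h : i + k = n) (c : (stdEven 𝒯).S i ⟶ B)
    (x : (stdEven 𝒯).S k ⟶ X.G) :
    θ X n (gsmul X.mG h c x) = lam (HRing.of (stdEven 𝒯) B i c) * θ X k x :=
  θ_eq X (X.ψ_lam i k n h c _ x (ψ_θ X k x))

/-- the core data of a telescope with a product -/
def coreOf (hB : Fre B B) [MonObj X.G] [IsCommMonObj X.G]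
    (hmul : ∀ (i k n : ℤ) (h : i + k = n) (x : (stdEven 𝒯).S i ⟶ X.G)
      (y : (stdEven 𝒯).S k ⟶ X.G), θ X n (gmul h x y) = θ X i x * θ X k y)
    (hlin : (X.mG.tensorRight X.G).IsLinear X.mG μ[X.G]) : Core B H lam where
  G := X.G
  mG := X.mG
  odd := X.odd
  θ := θ X
  θ_mem := θ_mem X
  θ_inj := θ_inj X
  θ_surj := θ_surj X
  θ_smul := θ_smul X
  θ_mul := hmul
  mul_lin := hlin
  ex1 := td_ex1 X hB
  ext1 := td_ext1 X hB
  ext2 := td_ext2 X hB

variable (𝒯) in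
/-- what is left of `HS2`: the product -/
def MulRow : Prop :=
  ∀ (B : 𝒯) [MonObj B] [IsCommMonObj B] (_ : Fre B B) (A : Type) [CommRing A]
    (H : ℤ → AddSubgroup A) [GradedRing H] (lam : HRing (stdEven 𝒯) B →+* A) (X : TD B H lam),
    ∃ (_ : MonObj X.G) (_ : IsCommMonObj X.G),
      (∀ (i k n : ℤ) (h : i + k = n) (x : (stdEven 𝒯).S i ⟶ X.G) (y : (stdEven 𝒯).S k ⟶ X.G),
        θ X n (gmul h x y) = θ X i x * θ X k y) ∧ (X.mG.tensorRight X.G).IsLinear X.mG μ[X.G]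

theorem hs2_of (h : MulRow 𝒯) : HS2 𝒯 := fun B _ _ J rb A _ H _ lam X => by
  obtain ⟨_, _, h1, h2⟩ := h B ⟨J, ⟨rb⟩⟩ A H lam X
  exact gd_of_core (coreOf X ⟨J, ⟨rb⟩⟩ h1 h2)

end Vale.Agent.P251EJ39
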