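import Vale.Agent.P251EJ.Defs

/-!
# P251EJ, block HS: the interface of the last step
-/

open CategoryTheory MonoidalCategory MonObj Limits Pretriangulated

set_option linter.unusedSectionVars false

universe u

noncomputable section

namespace Vale.Agent.P251EJ39

open Vale.Agent.P251 Vale.Agent.P251.S Vale.Agent.P251.T Vale.Agent.P251.M EvenSpheres

variable {𝒯 : Type u} [Category.{0} 𝒯] [Preadditive 𝒯] [HasZeroObject 𝒯]
    [HasShift 𝒯 ℤ] [∀ n : ℤ, (shiftFunctor 𝒯 n).Additive] [Pretriangulated 𝒯] [IsTriangulated 𝒯]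
    [MonoidalCategory 𝒯] [SymmetricCategory 𝒯] [TensorTriangulated 𝒯] [MonoidalClosed 𝒯]
    [HasCoproducts.{0} 𝒯] [HasProducts.{0} 𝒯] [StableCat 𝒯]

/-- every graded `π_* B`-linear map `π_* G → π_* N`, `N` an even module, comes from a linear map -/
def Ex1 {B G : 𝒯} [MonObj B] (mG : ModStr B G) : Prop :=
  ∀ (N : 𝒯) (m : ModStr B N), OddZero N →
    ∀ φ : ∀ d : ℤ, ((stdEven 𝒯).S d ⟶ G) →+ ((stdEven 𝒯).S d ⟶ N),
      (∀ (i k n : ℤ) (h : i + k = n) (c : (stdEven 𝒯).S i ⟶ B) (x : (stdEven 𝒯).S k ⟶ G),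
        φ n (gsmul mG h c x) = gsmul m h c (φ k x)) →
      ∃ e : G ⟶ N, mG.IsLinear m e ∧ ∀ (d : ℤ) (x : (stdEven 𝒯).S d ⟶ G), x ≫ e = φ d x

/-- linear maps to even modules are determined by their effect on homotopy -/
def Ext1 {B G : 𝒯} [MonObj B] (mG : ModStr B G) : Prop :=
  ∀ (N : 𝒯) (m : ModStr B N), OddZero N → ∀ e e' : G ⟶ N, mG.IsLinear m e → mG.IsLinear m e' →
    (∀ (d : ℤ) (x : (stdEven 𝒯).S d ⟶ G), x ≫ e = x ≫ e') → e = e'

/-- bilinear maps to even modules are determined by their effect on homotopy -/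
def Ext2 {B G : 𝒯} [MonObj B] (mG : ModStr B G) : Prop :=
  ∀ (N : 𝒯) (m : ModStr B N), OddZero N → ∀ e e' : G ⊗ G ⟶ N,
    (mG.tensorRight G).IsLinear m e → (mG.tensorRight G).IsLinear m ((β_ G G).hom ≫ e) →
    (mG.tensorRight G).IsLinear m e' → (mG.tensorRight G).IsLinear m ((β_ G G).hom ≫ e') →
    (∀ (i k : ℤ) (x : (stdEven 𝒯).S i ⟶ G) (y : (stdEven 𝒯).S k ⟶ G),
      (stdEven 𝒯).ext rfl x y ≫ e = (stdEven 𝒯).ext rfl x y ≫ e') → e = e'

/-- An even commutative monoid `G` which is a `B`-module, with `π_* G = A`. -/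
structure Core (B : 𝒯) [MonObj B] [IsCommMonObj B] {A : Type} [CommRing A]
    (H : ℤ → AddSubgroup A) (lam : HRing (stdEven 𝒯) B →+* A) where
  G : 𝒯
  [mon : MonObj G]
  [comm : IsCommMonObj G]
  mG : ModStr B G
  odd : OddZero G
  θ : ∀ d : ℤ, ((stdEven 𝒯).S d ⟶ G) →+ A
  θ_mem : ∀ d x, θ d x ∈ H d
  θ_inj : ∀ d, Function.Injective (θ d)
  θ_surj : ∀ d, ∀ a ∈ H d, ∃ x, θ d x = a
  θ_smul : ∀ (i k n : ℤ) (h : i + k = n) (c : (stdEven 𝒯).S i ⟶ B) (x : (stdEven 𝒯).S k ⟶ G),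
    θ n (gsmul mG h c x) = lam (HRing.of (stdEven 𝒯) B i c) * θ k x
  θ_mul : ∀ (i k n : ℤ) (h : i + k = n) (x : (stdEven 𝒯).S i ⟶ G) (y : (stdEven 𝒯).S k ⟶ G),
    θ n (gmul h x y) = θ i x * θ k y
  mul_lin : (mG.tensorRight G).IsLinear mG μ[G]
  ex1 : Ex1 mG
  ext1 : Ext1 mG
  ext2 : Ext2 mG

attribute [instance] Core.mon Core.comm

end Vale.Agent.P251EJ39
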