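import Vale.Agent.P251EJ39.Core

/-!
# P251EJ, block HS: from the core data to the realization `GD`
-/

open CategoryTheory MonoidalCategory MonObj Limits Pretriangulated

set_option linter.unusedSectionVars false

universe u

noncomputable section

namespace Vale.Agent.P251EJ39

open Vale.Agent.P251 Vale.Agent.P251.S Vale.Agent.P251.T Vale.Agent.P251.M EvenSpheres
  Vale.Agent.P093.Nak Vale.Agent.P257.H80

variable {𝒯 : Type u} [Category.{0} 𝒯] [Preadditive 𝒯] [HasZeroObject 𝒯]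
    [HasShift 𝒯 ℤ] [∀ n : ℤ, (shiftFunctor 𝒯 n).Additive] [Pretriangulated 𝒯] [IsTriangulated 𝒯]
    [MonoidalCategory 𝒯] [SymmetricCategory 𝒯] [TensorTriangulated 𝒯] [MonoidalClosed 𝒯]
    [HasCoproducts.{0} 𝒯] [HasProducts.{0} 𝒯] [StableCat 𝒯]

theorem of_inj {G : 𝒯} (d : ℤ) {x y : (stdEven 𝒯).S d ⟶ G}
    (h : HRing.of (stdEven 𝒯) G d x = HRing.of (stdEven 𝒯) G d y) : x = y :=
  DirectSum.of_injective (β := (stdEven 𝒯).Gr G) d h

theorem lin_whiskerRight {B N N' : 𝒯} [MonObj B] {m : ModStr B N} {m' : ModStr B N'} {e : N ⟶ N'}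
    (he : m.IsLinear m' e) (Z : 𝒯) : (m.tensorRight Z).IsLinear (m'.tensorRight Z) (e ▷ Z) := by
  have h : m.act ≫ e = (B ◁ e) ≫ m'.act := he
  change ((α_ B N Z).inv ≫ m.act ▷ Z) ≫ e ▷ Z = B ◁ (e ▷ Z) ≫ (α_ B N' Z).inv ≫ m'.act ▷ Z
  rw [Category.assoc, ← comp_whiskerRight, h, comp_whiskerRight,
    associator_inv_naturality_middle_assoc]

theorem lin_whiskerLeft {B N Z Z' : 𝒯} [MonObj B] (m : ModStr B N) (e : Z ⟶ Z') :
    (m.tensorRight Z).IsLinear (m.tensorRight Z') (N ◁ e) := by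
  change ((α_ B N Z).inv ≫ m.act ▷ Z) ≫ N ◁ e = B ◁ (N ◁ e) ≫ (α_ B N Z').inv ≫ m.act ▷ Z'
  rw [associator_inv_naturality_right_assoc, whisker_exchange, Category.assoc]

/-- a monoid under `B` as a `B`-module -/
abbrev viaM {B G : 𝒯} [MonObj B] [MonObj G] (f : B ⟶ G) [IsMonHom f] : ModStr B G :=
  (ModStr.self G).restr f

theorem via_act {B G : 𝒯} [MonObj B] [MonObj G] (f : B ⟶ G) [IsMonHom f] :
    (viaM f).act = f ▷ G ≫ μ[G] := rfl

theorem via_mul_lin {B G : 𝒯} [MonObj B] [MonObj G] (f : B ⟶ G) [IsMonHom f] :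
    ((viaM f).tensorRight G).IsLinear (viaM f) μ[G] := by
  change ((α_ B G G).inv ≫ (f ▷ G ≫ μ[G]) ▷ G) ≫ μ[G] = B ◁ μ[G] ≫ f ▷ G ≫ μ[G]
  rw [comp_whiskerRight, Category.assoc, Category.assoc, MonObj.mul_assoc,
    associator_naturality_left_assoc, Iso.inv_hom_id_assoc, whisker_exchange_assoc]

theorem gsmul_via {B G : 𝒯} [MonObj B] [MonObj G] (f : B ⟶ G) [IsMonHom f] {i k n : ℤ}
    (h : i + k = n) (c : (stdEven 𝒯).S i ⟶ B) (y : (stdEven 𝒯).S k ⟶ G) :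
    gsmul (viaM f) h c y = gmul h (c ≫ f) y := by
  unfold gsmul gmul
  rw [via_act, ext_comp_left, Category.assoc]

namespace Core

variable {B : 𝒯} [MonObj B] [IsCommMonObj B] {A : Type} [CommRing A]
  {H : ℤ → AddSubgroup A} [GradedRing H] {lam : HRing (stdEven 𝒯) B →+* A} (X : Core B H lam)

theorem θ_one : X.θ 0 ((stdEven 𝒯).zero.inv ≫ η[X.G]) = 1 := by
  obtain ⟨x, hx⟩ := X.θ_surj 0 1 (SetLike.GradedOne.one_mem)
  have h := X.θ_mul 0 0 0 (zero_add 0) ((stdEven 𝒯).zero.inv ≫ η[X.G]) x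
  rw [one_gmul, hx, _root_.mul_one] at h
  exact h.symm

/-- the unit `B ⟶ G` -/
def inc : B ⟶ X.G := (ρ_ B).inv ≫ B ◁ η[X.G] ≫ X.mG.act

theorem act_eq : X.mG.act = X.inc ▷ X.G ≫ μ[X.G] := by
  have h : ((α_ B X.G X.G).inv ≫ X.mG.act ▷ X.G) ≫ μ[X.G] = B ◁ μ[X.G] ≫ X.mG.act := X.mul_lin
  rw [Category.assoc, Iso.inv_comp_eq] at h
  unfold inc
  rw [comp_whiskerRight, comp_whiskerRight, Category.assoc, Category.assoc, h,
    associator_naturality_middle_assoc, ← whiskerLeft_comp_assoc, MonObj.one_mul]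
  simp

theorem inc_lin : μ[B] ≫ X.inc = B ◁ X.inc ≫ X.mG.act := by
  unfold inc
  rw [rightUnitor_inv_naturality_assoc, ← whisker_exchange_assoc, X.mG.mul_act]
  simp

instance : IsMonHom X.inc where
  one_hom := by
    unfold inc
    rw [rightUnitor_inv_naturality_assoc, ← whisker_exchange_assoc, X.mG.one_act,
      leftUnitor_naturality, ← unitors_inv_equal, Iso.inv_hom_id_assoc]
  mul_hom := by
    rw [inc_lin, act_eq, tensorHom_def', Category.assoc]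

/-- the ring homomorphism `π_{2*} G → A` -/
def Θ : HRing (stdEven 𝒯) X.G →+* A :=
  DirectSum.toSemiring (fun d => X.θ d) X.θ_one fun {i k} x y => X.θ_mul i k (i + k) rfl x y

theorem Θ_of (d : ℤ) (x : (stdEven 𝒯).S d ⟶ X.G) : X.Θ (HRing.of (stdEven 𝒯) X.G d x) = X.θ d x :=
  DirectSum.toSemiring_of _ _ _ _ _

theorem proj_Θ (y : HRing (stdEven 𝒯) X.G) (d : ℤ) : GradedRing.proj H d (X.Θ y) = X.θ d (y d) := by
  induction y using DirectSum.induction_on with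
  | zero => rw [map_zero, map_zero, DirectSum.zero_apply, map_zero]
  | of k x =>
    have h1 := X.Θ_of k x
    rw [h1, GradedRing.proj_apply]
    by_cases h : k = d
    · subst h
      rw [DirectSum.of_eq_same, DirectSum.decompose_of_mem_same H (X.θ_mem k x)]
    · rw [DirectSum.of_eq_of_ne _ _ _ (Ne.symm h), map_zero,
        DirectSum.decompose_of_mem_ne H (X.θ_mem k x) h]
  | add y z hy hz => rw [map_add, map_add, hy, hz, DirectSum.add_apply, map_add]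

theorem Θ_bij : Function.Bijective X.Θ := by
  refine ⟨(injective_iff_map_eq_zero _).2 fun y hy => DFinsupp.ext fun d => X.θ_inj d ?_,
    fun a => ?_⟩
  · rw [← X.proj_Θ y d, hy, map_zero]
    exact (map_zero (X.θ d)).symm
  · induction a using DirectSum.Decomposition.inductionOn H with
    | zero => exact ⟨0, map_zero _⟩
    | @homogeneous d a =>
      obtain ⟨x, hx⟩ := X.θ_surj d a a.2
      exact ⟨_, (X.Θ_of d x).trans hx⟩
    | add a b ha hb =>
      obtain ⟨y, rfl⟩ := ha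
      obtain ⟨z, rfl⟩ := hb
      exact ⟨y + z, map_add _ _ _⟩

/-- the ring isomorphism `A → π_{2*} G` -/
def Ψ : A →+* HRing (stdEven 𝒯) X.G := (RingEquiv.ofBijective X.Θ X.Θ_bij).symm.toRingHom

theorem Ψ_Θ (y : HRing (stdEven 𝒯) X.G) : X.Ψ (X.Θ y) = y :=
  (RingEquiv.ofBijective X.Θ X.Θ_bij).symm_apply_apply y

theorem Θ_Ψ (a : A) : X.Θ (X.Ψ a) = a :=
  (RingEquiv.ofBijective X.Θ X.Θ_bij).apply_symm_apply a

theorem Θ_inc (c : HRing (stdEven 𝒯) B) : X.Θ (HRing.map (E := stdEven 𝒯) X.inc c) = lam c := by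
  refine RingHom.congr_fun (HRing.ringHom_ext (f := X.Θ.comp (HRing.map (E := stdEven 𝒯) X.inc))
    (g := lam) fun d x => ?_) c
  have h := X.θ_smul d 0 d (add_zero d) x ((stdEven 𝒯).zero.inv ≫ η[X.G])
  rw [θ_one, _root_.mul_one] at h
  rw [RingHom.comp_apply, HRing.map_of, Θ_of, ← h]
  unfold gsmul inc
  rw [ext_one]
  simp only [Category.assoc]

theorem hom_lin (e : X.G ⟶ X.G) [IsMonHom e] : X.mG.IsLinear (viaM (X.inc ≫ e)) e := by
  change X.mG.act ≫ e = B ◁ e ≫ (X.inc ≫ e) ▷ X.G ≫ μ[X.G]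
  rw [act_eq, Category.assoc, IsMonHom.mul_hom, whisker_exchange_assoc,
    MonoidalCategory.tensorHom_def,
    comp_whiskerRight]
  simp only [Category.assoc]

theorem uniq (e e' : X.G ⟶ X.G) [IsMonHom e] [IsMonHom e'] (h : X.inc ≫ e = X.inc ≫ e')
    (h' : ∀ y, HRing.map (E := stdEven 𝒯) e y = HRing.map (E := stdEven 𝒯) e' y) : e = e' := by
  refine X.ext1 X.G (viaM (X.inc ≫ e)) X.odd e e' (X.hom_lin e) ?_ fun d x => of_inj d ?_
  · have h2 : X.mG.act ≫ e' = B ◁ e' ≫ (X.inc ≫ e') ▷ X.G ≫ μ[X.G] := X.hom_lin e'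
    change X.mG.act ≫ e' = B ◁ e' ≫ (X.inc ≫ e) ▷ X.G ≫ μ[X.G]
    rw [h2, h]
  · rw [← HRing.map_of, ← HRing.map_of, h']

theorem univ (f : B ⟶ X.G) [IsMonHom f] (σ : A →+* HRing (stdEven 𝒯) X.G)
    (hσ : ∀ d, ∀ a ∈ H d, IsHomog X.G d (σ a))
    (hl : ∀ c, σ (lam c) = HRing.map (E := stdEven 𝒯) f c) :
    ∃ (e : X.G ⟶ X.G) (_ : IsMonHom e), X.inc ≫ e = f ∧
      ∀ a, HRing.map (E := stdEven 𝒯) e (X.Ψ a) = σ a := by
  let φ : ∀ d : ℤ, ((stdEven 𝒯).S d ⟶ X.G) →+ ((stdEven 𝒯).S d ⟶ X.G) := fun d =>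
    { toFun := fun x => σ (X.θ d x) d
      map_zero' := by rw [map_zero, map_zero, DirectSum.zero_apply]
      map_add' := fun x y => by rw [map_add, map_add, DirectSum.add_apply] }
  have hφ : ∀ d x, HRing.of (stdEven 𝒯) X.G d (φ d x) = σ (X.θ d x) := fun d x => by
    obtain ⟨y, hy⟩ := hσ d _ (X.θ_mem d x)
    change HRing.of (stdEven 𝒯) X.G d (σ (X.θ d x) d) = _
    rw [hy, DirectSum.of_eq_same]
  obtain ⟨e, he, hx⟩ := X.ex1 X.G (viaM f) X.odd φ fun i k n h c x => of_inj n (by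
    rw [hφ, X.θ_smul, map_mul, hl, HRing.map_of, ← hφ, of_mul_of h, gsmul_via])
  have h1 : η[X.G] ≫ e = η[X.G] := by
    rw [← cancel_epi (stdEven 𝒯).zero.inv, ← Category.assoc, hx]
    refine of_inj 0 ?_
    rw [hφ, θ_one, map_one, of_one]
  have hA : (X.mG.tensorRight X.G).IsLinear (viaM f) (μ[X.G] ≫ e) :=
    isLinear_comp _ _ X.mul_lin he
  have hB : (X.mG.tensorRight X.G).IsLinear (viaM f) ((e ⊗ₘ e) ≫ μ[X.G]) := by
    rw [MonoidalCategory.tensorHom_def]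
    exact isLinear_comp _ _ (isLinear_comp _ _ (lin_whiskerRight he X.G) (lin_whiskerLeft _ e))
      (via_mul_lin f)
  have h2 : μ[X.G] ≫ e = (e ⊗ₘ e) ≫ μ[X.G] := by
    refine X.ext2 X.G (viaM f) X.odd _ _ hA ?_ hB ?_ fun i k x y => ?_
    · rwa [IsCommMonObj.mul_comm_assoc]
    · rwa [← BraidedCategory.braiding_naturality_assoc, IsCommMonObj.mul_comm]
    · rw [← Category.assoc, ← Category.assoc, ← ext_comp]
      change gmul rfl x y ≫ e = gmul rfl (x ≫ e) (y ≫ e)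
      refine of_inj _ ?_
      rw [hx, hx, hx, hφ, X.θ_mul, map_mul, ← hφ, ← hφ, of_mul_of rfl]
  have hm : IsMonHom e := ⟨h1, h2⟩
  refine ⟨e, hm, ?_, fun a => ?_⟩
  · have h3 : X.mG.act ≫ e = B ◁ e ≫ f ▷ X.G ≫ μ[X.G] := he
    unfold inc
    rw [Category.assoc, Category.assoc, h3, ← whiskerLeft_comp_assoc, h1, whisker_exchange_assoc,
      MonObj.mul_one, ← rightUnitor_inv_naturality_assoc, Iso.inv_hom_id, Category.comp_id]
  · have h4 : HRing.map (E := stdEven 𝒯) e = σ.comp X.Θ := HRing.ringHom_ext fun d x => by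
      rw [HRing.map_of, hx, hφ, RingHom.comp_apply, Θ_of]
    rw [h4, RingHom.comp_apply, Θ_Ψ]

/-- **The realization.** -/
def toGD : P251EJ.GD B H lam where
  G := X.G
  inc := X.inc
  Ψ := X.Ψ
  bij := (RingEquiv.ofBijective X.Θ X.Θ_bij).symm.bijective
  Ψ_mem d a ha := by
    obtain ⟨x, rfl⟩ := X.θ_surj d a ha
    exact ⟨x, by rw [← Θ_of, Ψ_Θ]⟩
  Ψ_lam c := by rw [← X.Θ_inc, Ψ_Θ]
  odd := X.odd
  univ f _ σ hσ hl := X.univ f σ hσ hl
  uniq e e' _ _ h h' := X.uniq e e' h h'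

end Core

theorem gd_of_core {B : 𝒯} [MonObj B] [IsCommMonObj B] {A : Type} [CommRing A]
    {H : ℤ → AddSubgroup A} [GradedRing H] {lam : HRing (stdEven 𝒯) B →+* A} (X : Core B H lam) :
    Nonempty (P251EJ.GD B H lam) := ⟨X.toGD⟩

end Vale.Agent.P251EJ39
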